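import Vale.Agent.Lib.P348.helper23.Basics
import Vale.Agent.Lib.P356.helper34.AevalLemmas

/-!
Variational principle above the ground space of a Hermitian matrix (spare copy of leaf K8).
-/

namespace Vale.Agent.Lib.P348.H59

open Matrix

open Vale.Agent.Lib.P361 Vale.Agent.Lib.P348

theorem unitary_dot {n : Type*} [Fintype n] [DecidableEq n] (U : Matrix n n ℂ)
    (hUU : star U * U = 1) (a b : n → ℂ) :
    star (U *ᵥ a) ⬝ᵥ (U *ᵥ b) = star a ⬝ᵥ b := by
  rw [Matrix.star_mulVec, ← Matrix.dotProduct_mulVec, Matrix.mulVec_mulVec,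
    ← Matrix.star_eq_conjTranspose, hUU, Matrix.one_mulVec]

theorem exists_above {n : Type*} [Fintype n] [DecidableEq n] (H : Matrix n n ℂ)
    (hH : H.IsHermitian) (k0 : n) (hk0 : ∀ k, hH.eigenvalues k0 ≤ hH.eigenvalues k)
    (p : Polynomial ℂ) (hp1 : p.eval (hH.eigenvalues k0 : ℂ) = 1)
    (hp2 : H * Polynomial.aeval H p = (hH.eigenvalues k0 : ℂ) • Polynomial.aeval H p)
    (ψ : n → ℂ) (hψ : ψ ≠ 0) (hPψ : Polynomial.aeval H p *ᵥ ψ = 0) :
    ∃ k, hH.eigenvalues k0 < hH.eigenvalues k ∧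
      hH.eigenvalues k * nsq ψ ≤ (ip ψ (H *ᵥ ψ)).re := by
  classical
  have hUU : star (hH.eigenvectorUnitary : Matrix n n ℂ) * (hH.eigenvectorUnitary : Matrix n n ℂ)
      = 1 := Unitary.coe_star_mul_self _
  have hUU' : (hH.eigenvectorUnitary : Matrix n n ℂ) * star (hH.eigenvectorUnitary : Matrix n n ℂ)
      = 1 := Unitary.coe_mul_star_self _
  generalize hUdef : (hH.eigenvectorUnitary : Matrix n n ℂ) = U at hUU hUU'
  -- columns of U are eigenvectors
  have hcol : ∀ k, H *ᵥ (fun i => U i k) = ((hH.eigenvalues k : ℝ) : ℂ) • (fun i => U i k) := by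
    intro k
    have h1 := hH.mulVec_eigenvectorBasis k
    have e : (fun i => U i k) = ⇑(hH.eigenvectorBasis k) := by
      rw [← hUdef]
      rfl
    rw [e, h1]
    ext i
    simp [Complex.real_smul]
  have hHU : H * U = U * Matrix.diagonal (fun k => ((hH.eigenvalues k : ℝ) : ℂ)) := by
    ext i k
    have h1 := congrFun (hcol k) i
    rw [Matrix.mul_diagonal]
    rw [Matrix.mul_apply]
    rw [Matrix.mulVec, dotProduct] at h1
    rw [h1]
    simp [mul_comm]
  have hPU : Polynomial.aeval H p * U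
      = U * Matrix.diagonal (fun k => p.eval ((hH.eigenvalues k : ℝ) : ℂ)) := by
    ext i k
    have h1 := congrFun (Vale.Agent.Lib.P356.H34.aeval_mulVec_of_mulVec_eq H (fun i => U i k)
      ((hH.eigenvalues k : ℝ) : ℂ) (hcol k) p) i
    rw [Matrix.mul_diagonal]
    rw [Matrix.mul_apply]
    rw [Matrix.mulVec, dotProduct] at h1
    rw [h1]
    simp [mul_comm]
  set c : n → ℂ := star U *ᵥ ψ with hc
  have hψc : ψ = U *ᵥ c := by
    rw [hc, Matrix.mulVec_mulVec, hUU', Matrix.one_mulVec]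
  -- the coefficients on the ground space vanish
  have hqc : ∀ k, p.eval ((hH.eigenvalues k : ℝ) : ℂ) * c k = 0 := by
    have h1 : Matrix.diagonal (fun k => p.eval ((hH.eigenvalues k : ℝ) : ℂ)) *ᵥ c = 0 := by
      have h2 : U *ᵥ (Matrix.diagonal (fun k => p.eval ((hH.eigenvalues k : ℝ) : ℂ)) *ᵥ c) = 0 := by
        rw [Matrix.mulVec_mulVec, ← hPU, ← Matrix.mulVec_mulVec, ← hψc, hPψ]
      have h3 := congrArg (fun v => star U *ᵥ v) h2
      simp only [Matrix.mulVec_mulVec, Matrix.mulVec_zero] at h3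
      rw [← Matrix.mul_assoc, hUU, Matrix.one_mul] at h3
      exact h3
    intro k
    have h4 := congrFun h1 k
    rw [Matrix.mulVec_diagonal] at h4
    exact h4
  have hc0 : ∀ k, hH.eigenvalues k = hH.eigenvalues k0 → c k = 0 := by
    intro k hk
    have h1 := hqc k
    rw [hk, hp1, one_mul] at h1
    exact h1
  have hcne : ∃ k, c k ≠ 0 := by
    by_contra hcon
    push Not at hcon
    apply hψ
    rw [hψc]
    have : c = 0 := funext hcon
    rw [this, Matrix.mulVec_zero]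
  have hS : (Finset.univ.filter (fun k => c k ≠ 0)).Nonempty := by
    obtain ⟨k, hk⟩ := hcne
    exact ⟨k, by simp [hk]⟩
  obtain ⟨k1, hk1S, hmin⟩ := Finset.exists_min_image _ (fun k => hH.eigenvalues k) hS
  have hk1 : c k1 ≠ 0 := by simpa using hk1S
  refine ⟨k1, lt_of_le_of_ne (hk0 k1) (fun h => hk1 (hc0 k1 h.symm)), ?_⟩
  -- Parseval
  have hn : ((nsq ψ : ℝ) : ℂ) = star c ⬝ᵥ c := by
    rw [nsq_def]
    have h1 : star ψ ⬝ᵥ ψ = star c ⬝ᵥ c := by
      rw [hψc, unitary_dot U hUU]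
    rw [← h1, dotProduct]
    push_cast
    refine Finset.sum_congr rfl fun σ _ => ?_
    rw [Pi.star_apply, Complex.star_def, Complex.conj_mul']
  have he : ip ψ (H *ᵥ ψ)
      = star c ⬝ᵥ (Matrix.diagonal (fun k => ((hH.eigenvalues k : ℝ) : ℂ)) *ᵥ c) := by
    rw [ip_def]
    have h1 : H *ᵥ ψ = U *ᵥ (Matrix.diagonal (fun k => ((hH.eigenvalues k : ℝ) : ℂ)) *ᵥ c) := by
      rw [Matrix.mulVec_mulVec, ← hHU, ← Matrix.mulVec_mulVec, ← hψc]
    rw [h1]
    have h2 := unitary_dot U hUU c (Matrix.diagonal (fun k => ((hH.eigenvalues k : ℝ) : ℂ)) *ᵥ c)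
    rw [← hψc] at h2
    rw [← h2]
    rfl
  have hn' : nsq ψ = ∑ k, ‖c k‖ ^ 2 := by
    have h1 : ((nsq ψ : ℝ) : ℂ) = ((∑ k, ‖c k‖ ^ 2 : ℝ) : ℂ) := by
      rw [hn, dotProduct]
      push_cast
      refine Finset.sum_congr rfl fun σ _ => ?_
      rw [Pi.star_apply, Complex.star_def, Complex.conj_mul']
    exact_mod_cast h1
  have he' : (ip ψ (H *ᵥ ψ)).re = ∑ k, hH.eigenvalues k * ‖c k‖ ^ 2 := by
    have h1 : ip ψ (H *ᵥ ψ) = ((∑ k, hH.eigenvalues k * ‖c k‖ ^ 2 : ℝ) : ℂ) := by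
      rw [he, dotProduct]
      push_cast
      refine Finset.sum_congr rfl fun σ _ => ?_
      rw [Matrix.mulVec_diagonal, Pi.star_apply, Complex.star_def]
      rw [← Complex.conj_mul' (c σ)]
      ring
    rw [h1, Complex.ofReal_re]
  rw [hn', he', Finset.mul_sum]
  refine Finset.sum_le_sum fun k _ => ?_
  by_cases hk : c k = 0
  · rw [hk]
    simp
  · have h1 : hH.eigenvalues k1 ≤ hH.eigenvalues k := hmin k (by simp [hk])
    exact mul_le_mul_of_nonneg_right h1 (by positivity)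

end Vale.Agent.Lib.P348.H59
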